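import Vale.Agent.P213.SSet.NerveHomotopy

/-!
# P213: the map into `Ex`

The last vertex map of a subdivided simplex sends a face to its largest vertex.
-/

universe u

namespace Vale.Agent.P213.SSetH

open CategoryTheory SSet Simplicial Opposite PartialOrder

noncomputable section

/-- The map of faces of a monotone map of vertices. -/
abbrev faceMap {a b : ℕ} (f : Fin (a + 1) →o Fin (b + 1)) : Spec.Face.{u} a →o Spec.Face.{u} b :=
  NonemptyFiniteChains.orderHomMap
    { toFun := fun x => ULift.up (f x.down)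
      monotone' := fun _ _ h => f.monotone h }

/-- The largest vertex of a face. -/
def maxV (m : ℕ) : Spec.Face.{u} m →o Fin (m + 1) where
  toFun s := s.finset.sup' s.nonempty ULift.down
  monotone' s _ h := Finset.sup'_mono _ h s.nonempty

theorem maxV_mem {m : ℕ} (s : Spec.Face.{u} m) : ULift.up (maxV m s) ∈ s.finset := by
  obtain ⟨x, hx, e⟩ := Finset.exists_mem_eq_sup' s.nonempty ULift.down
  show ULift.up (s.finset.sup' s.nonempty ULift.down) ∈ s.finset
  rw [e]
  exact hx

theorem maxV_faceMap {a b : ℕ} (f : Fin (a + 1) →o Fin (b + 1)) (s : Spec.Face.{u} a) :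
    maxV b (faceMap f s) = f (maxV a s) := by
  apply le_antisymm
  · show (faceMap f s).finset.sup' (faceMap f s).nonempty ULift.down ≤ _
    refine Finset.sup'_le _ _ fun x hx => ?_
    obtain ⟨y, hy, rfl⟩ := (NonemptyFiniteChains.mem_map_iff _ _ _).1 hx
    exact f.monotone (Finset.le_sup' ULift.down hy)
  · show _ ≤ (faceMap f s).finset.sup' (faceMap f s).nonempty ULift.down
    have h : ULift.up (f (maxV a s)) ∈ (faceMap.{u} f s).finset :=
      (NonemptyFiniteChains.mem_map_iff _ _ _).2 ⟨_, maxV_mem s, rfl⟩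
    exact Finset.le_sup' ULift.down h

/-- A monotone map from a poset to `Fin (m + 1)` gives a map into the simplex. -/
def toSimplex {P : Type u} [PartialOrder P] (m : ℕ) (g : P →o Fin (m + 1)) :
    nerve P ⟶ (Δ[m] : SSet.{u}) where
  app k := TypeCat.ofHom fun σ => stdSimplex.objMk
    { toFun := fun i => g (σ.obj i)
      monotone' := fun _ _ h => g.monotone (leOfHom (σ.map (homOfLE h))) }
  naturality k k' f := by ext σ; rfl

/-- The last vertex map of the subdivided simplex. -/
def lastMap (n : SimplexCategory) :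
    (SimplexCategory.sd.{u}.obj n : SSet.{u}) ⟶ stdSimplex.obj n :=
  toSimplex (P := Spec.Face.{u} n.len) n.len (maxV n.len)

theorem lastMap_naturality {a b : SimplexCategory} (θ : a ⟶ b) :
    SimplexCategory.sd.{u}.map θ ≫ lastMap b = lastMap a ≫ SSet.stdSimplex.map θ := by
  ext k σ
  apply stdSimplex.objEquiv.injective
  ext i : 3
  exact maxV_faceMap θ.toOrderHom (σ.obj i)

/-- The map `X → Ex X`. -/
def toEx : 𝟭 SSet.{u} ⟶ SSet.ex.{u} where
  app X :=
    { app := fun n => TypeCat.ofHom fun x =>
        ULift.up (lastMap n.unop ≫ yonedaEquiv.symm x)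
      naturality := fun n n' f => by
        apply ConcreteCategory.hom_ext
        intro x
        refine congrArg ULift.up ?_
        show lastMap n'.unop ≫ yonedaEquiv.symm (X.map f x) =
          SimplexCategory.sd.map f.unop ≫ lastMap n.unop ≫ yonedaEquiv.symm x
        rw [← Category.assoc, lastMap_naturality, Category.assoc]
        congr 1
        apply yonedaEquiv.injective
        rw [Equiv.apply_symm_apply]
        change _ = (yonedaEquiv.symm x).app _ (yonedaEquiv (SSet.stdSimplex.map f.unop))
        rw [yonedaEquiv_map, yonedaEquiv_symm_app_objEquiv_symm]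
        rfl }
  naturality X Y g := by
    ext n x
    refine congrArg ULift.up ?_
    show lastMap n.unop ≫ yonedaEquiv.symm (g.app n x) = (lastMap n.unop ≫ yonedaEquiv.symm x) ≫ g
    rw [Category.assoc, yonedaEquiv_symm_comp]

/-- The subdivided simplex in a simplex of `Ex`. -/
abbrev exDown {X : SSet.{u}} {m : ℕ} (z : (SSet.ex.obj X).obj (op ⦋m⦌)) :
    nerve (Spec.Face.{u} m) ⟶ X := z.down

theorem exDown_injective {X : SSet.{u}} {m : ℕ} :
    Function.Injective (exDown (X := X) (m := m)) := fun _ _ h => ULift.down_injective h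

theorem exDown_toEx {X : SSet.{u}} {m : ℕ} (x : X _⦋m⦌) :
    exDown ((toEx.app X).app (op ⦋m⦌) x) = toSimplex m (maxV m) ≫ yonedaEquiv.symm x := rfl

theorem exDown_map {X : SSet.{u}} {a b : ℕ} (θ : ⦋a⦌ ⟶ ⦋b⦌)
    (z : (SSet.ex.obj X).obj (op ⦋b⦌)) :
    exDown ((SSet.ex.obj X).map θ.op z) = nerveMap (faceMap θ.toOrderHom).monotone.functor ≫
      exDown z := rfl

theorem exDown_map' {X Y : SSet.{u}} (g : X ⟶ Y) {m : ℕ} (z : (SSet.ex.obj X).obj (op ⦋m⦌)) :
    exDown ((SSet.ex.map g).app (op ⦋m⦌) z) = exDown z ≫ g := rfl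

end

end Vale.Agent.P213.SSetH
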