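import Vale.Agent.P213.SSet.Ex.Horn

/-!
# P213: `Ex` keeps fibrations; horns in `Ex X` fill in `Ex (Ex X)`
-/

universe u

namespace Vale.Agent.P213.SSetH

open CategoryTheory SSet Simplicial Opposite PartialOrder MonoidalCategory
  CartesianMonoidalCategory HomotopicalAlgebra SSet.modelCategoryQuillen Limits

noncomputable section

variable {m : ℕ} {i : Fin (m + 2)} {X : SSet.{u}}

open Classical in
/-- The vertex of the horn assigned to a face. -/
def fillV (i : Fin (m + 2)) (s : Spec.Face.{u} (m + 1)) : Fin (m + 2) :=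
  if InHorn i s then maxV (m + 1) s else i

theorem exists_notMem_image (i : Fin (m + 2)) {k : SimplexCategoryᵒᵖ}
    (σ : (nerve (Spec.Face.{u} (m + 1))).obj k) :
    ∃ j, j ≠ i ∧ ∀ a, fillV i (σ.obj a) ≠ j := by
  classical
  obtain ⟨j₀, hj₀⟩ := exists_ne i
  by_cases h : ∃ a, InHorn i (σ.obj a)
  · obtain ⟨t, ht, htop⟩ := (Finset.univ.filter fun a => InHorn i (σ.obj a)).exists_max_image id
      (h.imp fun a ha => Finset.mem_filter.2 ⟨Finset.mem_univ _, ha⟩)
    obtain ⟨j, hj, hjt⟩ := (Finset.mem_filter.1 ht).2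
    refine ⟨j, hj, fun a e => ?_⟩
    by_cases ha : InHorn i (σ.obj a)
    · rw [fillV, if_pos ha] at e
      exact hjt (leOfHom (σ.map (homOfLE (htop a (Finset.mem_filter.2 ⟨Finset.mem_univ _, ha⟩))))
        (e ▸ maxV_mem _))
    · rw [fillV, if_neg ha] at e
      exact hj e.symm
  · exact ⟨j₀, hj₀, fun a e => hj₀ (e.symm.trans (if_neg fun ha => h ⟨a, ha⟩))⟩

open Classical in
/-- The faces of the horn assigned to the subsets of a chain. -/
def chainImg (i : Fin (m + 2)) {k : SimplexCategoryᵒᵖ}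
    (σ : (nerve (Spec.Face.{u} (m + 1))).obj k) :
    Spec.Face.{u} k.unop.len →o HFace.{u} m i where
  toFun c :=
    ⟨{ finset := c.finset.image fun a => ULift.up (fillV i (σ.obj a.down))
       nonempty := c.nonempty.image _
       comparable := fun _ _ => le_total _ _ },
      (exists_notMem_image i σ).imp fun j hj => ⟨hj.1, fun h => by
        obtain ⟨a, -, e⟩ := Finset.mem_image.1 h
        exact hj.2 a.down (congrArg ULift.down e)⟩⟩
  monotone' _ _ h := Finset.image_subset_image h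

theorem mem_chainImg {k : SimplexCategoryᵒᵖ} (σ : (nerve (Spec.Face.{u} (m + 1))).obj k)
    (c : Spec.Face.{u} k.unop.len) (y : ULift.{u} (Fin (m + 2))) :
    y ∈ (chainImg i σ c).1.finset ↔ ∃ a ∈ c.finset, ULift.up (fillV i (σ.obj a.down)) = y :=
  Finset.mem_image

variable (φ : (horn.{u} (m + 1) i : SSet.{u}) ⟶ SSet.ex.obj X)

/-- The filler, out of the subdivided simplex. -/
def fillMap : nerve (Spec.Face.{u} (m + 1)) ⟶ SSet.ex.obj X where
  app k := TypeCat.ofHom fun σ =>
    ULift.up (nerveMap (chainImg i σ).monotone.functor ≫ hornDesc φ)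
  naturality k k' f := by
    apply ConcreteCategory.hom_ext
    intro σ
    refine congrArg ULift.up ?_
    show nerveMap (chainImg i ((nerve _).map f σ)).monotone.functor ≫ hornDesc φ =
      nerveMap (faceMap f.unop.toOrderHom).monotone.functor ≫
        nerveMap (chainImg i σ).monotone.functor ≫ hornDesc φ
    rw [← Category.assoc]
    congr 1
    apply NatTrans.ext
    funext l
    apply ConcreteCategory.hom_ext
    intro d
    refine nerve_ext fun j => ?_
    apply Subtype.ext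
    apply NonemptyFiniteChains.ext
    ext y
    refine (mem_chainImg _ _ y).trans (Iff.trans ?_ (mem_chainImg σ _ y).symm)
    constructor
    · rintro ⟨a, ha, rfl⟩
      exact ⟨ULift.up (f.unop.toOrderHom a.down),
        (NonemptyFiniteChains.mem_map_iff _ _ _).2 ⟨a, ha, rfl⟩, rfl⟩
    · rintro ⟨b, hb, rfl⟩
      obtain ⟨a, ha, rfl⟩ := (NonemptyFiniteChains.mem_map_iff _ _ _).1 hb
      exact ⟨a, ha, rfl⟩

/-- **Kan.** A horn in `Ex X` fills in `Ex (Ex X)`. -/
theorem exists_fill : ∃ ψ : (Δ[m + 1] : SSet.{u}) ⟶ SSet.ex.obj (SSet.ex.obj X),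
    (horn (m + 1) i).ι ≫ ψ = φ ≫ toEx.app (SSet.ex.obj X) := by
  refine ⟨SSet.yonedaEquiv.symm (ULift.up (fillMap φ)), ?_⟩
  ext ⟨k⟩ x
  induction k using SimplexCategory.rec with | _ a => ?_
  apply exDown_injective
  show nerveMap (faceMap (stdSimplex.asOrderHom x.1)).monotone.functor ≫ fillMap φ =
    toSimplex a (maxV a) ≫ SSet.yonedaEquiv.symm (φ.app (op ⦋a⦌) x)
  ext ⟨l⟩ σ
  induction l using SimplexCategory.rec with | _ b => ?_
  let θ : (⦋b⦌ : SimplexCategory) ⟶ ⦋a⦌ := SimplexCategory.Hom.mk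
    { toFun := fun j => maxV a (σ.obj j)
      monotone' := fun _ _ h => (maxV a).monotone (leOfHom (σ.map (homOfLE h))) }
  apply exDown_injective
  show nerveMap (chainImg i ((nerveMap (faceMap (stdSimplex.asOrderHom x.1)).monotone.functor).app _
      σ)).monotone.functor ≫ hornDesc φ =
    nerveMap (faceMap θ.toOrderHom).monotone.functor ≫ exDown (φ.app _ x)
  rw [← hornDesc_fac φ x, ← Category.assoc]
  congr 1
  apply NatTrans.ext
  funext l
  apply ConcreteCategory.hom_ext
  intro d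
  refine nerve_ext fun j => ?_
  apply Subtype.ext
  apply NonemptyFiniteChains.ext
  ext y
  refine (mem_chainImg _ _ y).trans ?_
  have key : ∀ z : Fin (b + 1), fillV i (faceMap (stdSimplex.asOrderHom x.1) (σ.obj z)) =
      stdSimplex.asOrderHom x.1 (maxV a (σ.obj z)) := fun z => by
    refine (if_pos ?_).trans (maxV_faceMap _ _)
    exact (imgMap _ (mem_horn.1 x.2) (σ.obj z)).2
  constructor
  · rintro ⟨z, hz, rfl⟩
    exact (NonemptyFiniteChains.mem_map_iff _ _ _).2
      ⟨ULift.up (θ.toOrderHom z.down), (NonemptyFiniteChains.mem_map_iff _ _ _).2 ⟨z, hz, rfl⟩,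
        congrArg ULift.up (key z.down).symm⟩
  · intro hy
    obtain ⟨w, hw, rfl⟩ := (NonemptyFiniteChains.mem_map_iff _ _ _).1 hy
    obtain ⟨z, hz, rfl⟩ := (NonemptyFiniteChains.mem_map_iff _ _ _).1 hw
    exact ⟨z, hz, congrArg ULift.up (key z.down)⟩

/-! ### Fibrations -/

/-- A monomorphism lifts against fibrations if a zigzag of two homotopies, both preserving the
source, joins the identity to a map into the source. -/
theorem exists_lift_of_zigzag {A B E Y : SSet.{u}} (i : A ⟶ B) [Mono i] (p : E ⟶ Y) [Fibration p]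
    (a : A ⟶ E) (b : B ⟶ Y) (w : a ≫ p = i ≫ b) (u : B ⟶ B) (c : B ⟶ A)
    (H₁ H₂ : B ⊗ Δ[1] ⟶ B) (G₁ G₂ : A ⊗ Δ[1] ⟶ A) (h₁ : SSet.ι₀ ≫ H₁ = 𝟙 B)
    (h₁' : SSet.ι₁ ≫ H₁ = u) (h₂ : SSet.ι₀ ≫ H₂ = c ≫ i) (h₂' : SSet.ι₁ ≫ H₂ = u)
    (e₁ : i ▷ _ ≫ H₁ = G₁ ≫ i) (e₂ : i ▷ _ ≫ H₂ = G₂ ≫ i) :
    ∃ l : B ⟶ E, i ≫ l = a ∧ l ≫ p = b := by
  have hG0 : SSet.ι₀ ≫ G₂ = i ≫ c := by
    rw [← cancel_mono i, Category.assoc, Category.assoc, ← e₂, ι₀_comp_assoc, h₂]
  obtain ⟨L₂, hL₂0, hL₂i, hL₂p⟩ := exists_lift_cyl 1 i p ((ptIso B).hom ≫ c ≫ a) (G₂ ≫ a)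
    (by
      rw [whisker_δ_one, Category.assoc, reassoc_of% hG0]
      show i ▷ _ ≫ fst _ _ ≫ _ = fst _ _ ≫ _
      rw [whiskerRight_fst_assoc])
    (H₂ ≫ b)
    (by simp only [Category.assoc, w, whisker_δ_one, reassoc_of% h₂]; rfl)
    (by rw [Category.assoc, w, ← reassoc_of% e₂])
  have hG : SSet.ι₁ ≫ G₂ = SSet.ι₁ ≫ G₁ := by
    rw [← cancel_mono i, Category.assoc, Category.assoc, ← e₁, ← e₂, ι₁_comp_assoc,
      ι₁_comp_assoc, h₁', h₂']
  obtain ⟨L₁, hL₁0, hL₁i, hL₁p⟩ := exists_lift_cyl 0 i p ((ptIso B).hom ≫ SSet.ι₁ ≫ L₂) (G₁ ≫ a)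
    (by
      rw [whisker_δ_zero, Category.assoc, ← reassoc_of% hG]
      show i ▷ _ ≫ fst _ _ ≫ _ = fst _ _ ≫ _
      rw [whiskerRight_fst_assoc, ← ι₁_comp_assoc, hL₂i])
    (H₁ ≫ b)
    (by simp only [Category.assoc, whisker_δ_zero, hL₂p, reassoc_of% h₁', reassoc_of% h₂']; rfl)
    (by rw [Category.assoc, w, ← reassoc_of% e₁])
  refine ⟨SSet.ι₀ ≫ L₁, ?_, ?_⟩
  · rw [← ι₀_comp_assoc, hL₁i]
    have : SSet.ι₀ ≫ G₁ = 𝟙 A := by
      rw [← cancel_mono i, Category.assoc, ← e₁, ι₀_comp_assoc, h₁, Category.comp_id,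
        Category.id_comp]
    rw [reassoc_of% this]
  · rw [Category.assoc, hL₁p, reassoc_of% h₁]

open Classical in
/-- Add the missing vertex of the horn. -/
def addV (i : Fin (m + 2)) : Spec.Face.{u} (m + 1) →o Spec.Face.{u} (m + 1) where
  toFun s :=
    { finset := insert (ULift.up i) s.finset
      nonempty := Finset.insert_nonempty _ _
      comparable := fun _ _ => le_total _ _ }
  monotone' _ _ h := Finset.insert_subset_insert _ h

theorem mem_addV {s : Spec.Face.{u} (m + 1)} {y : ULift.{u} (Fin (m + 2))} :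
    y ∈ (addV i s).finset ↔ y = ULift.up i ∨ y ∈ s.finset :=
  Finset.mem_insert

theorem inHorn_addV {s : Spec.Face.{u} (m + 1)} (h : InHorn i s) : InHorn i (addV i s) :=
  h.imp fun _ hj => ⟨hj.1, fun e =>
    (mem_addV.1 e).elim (fun e => hj.1 (congrArg ULift.down e)) hj.2⟩

/-- The vertex `i`, as a face. -/
def ptV (i : Fin (m + 2)) : Spec.Face.{u} (m + 1) where
  finset := {ULift.up i}
  nonempty := Finset.singleton_nonempty _
  comparable _ _ := le_total _ _

theorem inHorn_ptV : InHorn.{u} i (ptV i) :=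
  (exists_ne i).imp fun _ hj =>
    ⟨hj, fun e => hj (congrArg ULift.down (Finset.mem_singleton.1 e))⟩

/-- The inclusion of the horn. -/
abbrev hornIncl (m : ℕ) (i : Fin (m + 2)) :
    nerve (HFace.{u} m i) ⟶ nerve (Spec.Face.{u} (m + 1)) :=
  nerveMap (Subtype.mono_coe (InHorn i)).functor

theorem exists_lift_hornIncl {E Y : SSet.{u}} (p : E ⟶ Y) [Fibration p]
    (a : nerve (HFace.{u} m i) ⟶ E) (b : nerve (Spec.Face.{u} (m + 1)) ⟶ Y)
    (w : a ≫ p = hornIncl m i ≫ b) :
    ∃ l, hornIncl m i ≫ l = a ∧ l ≫ p = b := by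
  have : Mono (hornIncl.{u} m i) := by
    rw [NatTrans.mono_iff_mono_app]
    intro k
    rw [mono_iff_injective]
    exact fun σ τ e => nerve_ext fun j =>
      Subtype.ext (congrArg (fun z : (nerve (Spec.Face.{u} (m + 1))).obj k => z.obj j) e)
  let uA : HFace.{u} m i →o HFace.{u} m i :=
    ⟨fun s => ⟨addV i s.1, inHorn_addV s.2⟩, fun _ _ h => (addV i).monotone h⟩
  have l1 : ∀ s : Spec.Face.{u} (m + 1), s ≤ addV i s := fun s => Finset.subset_insert _ _
  have l2 : ∀ s : Spec.Face.{u} (m + 1), ptV i ≤ addV i s := fun s =>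
    Finset.singleton_subset_iff.2 (Finset.mem_insert_self _ _)
  refine exists_lift_of_zigzag (hornIncl m i) p a b w (nerveMap (addV i).monotone.functor)
    (nerveMap (Monotone.functor
      (f := fun _ : Spec.Face.{u} (m + 1) => (⟨ptV i, inHorn_ptV⟩ : HFace.{u} m i)) monotone_const))
    (nerveHtpMap id (addV i) monotone_id (addV i).monotone l1)
    (nerveHtpMap (fun _ => ptV i) (addV i) monotone_const (addV i).monotone l2)
    (nerveHtpMap id uA monotone_id uA.monotone fun s => l1 s.1)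
    (nerveHtpMap (fun _ => ⟨ptV i, inHorn_ptV⟩) uA monotone_const uA.monotone fun s => l2 s.1)
    ?_ ?_ ?_ ?_ ?_ ?_
  all_goals
    apply NatTrans.ext
    funext k
    apply ConcreteCategory.hom_ext
    intro σ
    refine nerve_ext fun j => ?_
    first
      | rfl
      | (show (if _ then _ else _) = Subtype.val (if _ then _ else _)
         rw [apply_ite Subtype.val]
         rfl)

/-- `Ex` keeps fibrations. -/
theorem fibration_ex {E B : SSet.{u}} (p : E ⟶ B) [Fibration p] :
    Fibration (SSet.ex.map p) := by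
  rw [HomotopicalAlgebra.fibration_iff, fibrations_eq]
  rintro _ _ _ hj
  simp only [J, MorphismProperty.iSup_iff] at hj
  obtain ⟨m, ⟨i⟩⟩ := hj
  refine ⟨fun {f g} sq => ?_⟩
  let b : nerve (Spec.Face.{u} (m + 1)) ⟶ B := exDown (SSet.yonedaEquiv g)
  have hg : ∀ (k : ℕ) (x : (Δ[m + 1] : SSet.{u}).obj (op ⦋k⦌)),
      exDown (g.app (op ⦋k⦌) x) =
        nerveMap (faceMap (stdSimplex.asOrderHom x)).monotone.functor ≫ b := fun k x => by
    have e : g.app (op ⦋k⦌) x =
        (SSet.ex.obj B).map (stdSimplex.objEquiv x).op (SSet.yonedaEquiv g) := by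
      rw [stdSimplex.map_objEquiv_op_apply, Equiv.symm_apply_apply]
    rw [e]
    rfl
  obtain ⟨l, hla, hlb⟩ := exists_lift_hornIncl p (hornDesc f) b (by
    apply NatTrans.ext
    funext k
    apply ConcreteCategory.hom_ext
    intro c
    let s := c.obj (Fin.last _)
    let d := chainPre ((nerveMap (Subtype.mono_coe _).functor).app k c) s.1
      fun j => obj_le_last c j
    have hd : (nerveMap (faceMap (emb s.1).toOrderHom).monotone.functor).app k d =
        (hornIncl.{u} m i).app k c :=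
      nerve_ext fun j => faceMap_pre s.1 (obj_le_last c j)
    have e := congrArg (fun z => (exDown z).app k d)
      (ConcreteCategory.congr_hom (congr_app sq.w (op ⦋dimF s.1⦌)) (faceSimplex s))
    have e' : p.app k ((exDown (f.app _ (faceSimplex s))).app k d) =
        (exDown (g.app _ (faceSimplex s).1)).app k d := e
    rw [hg] at e'
    show p.app k (hornVal f k c) = b.app k ((hornIncl.{u} m i).app k c)
    rw [← hd]
    exact e')
  refine ⟨⟨⟨SSet.yonedaEquiv.symm (ULift.up l), ?_, ?_⟩⟩⟩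
  · ext ⟨k⟩ x
    induction k using SimplexCategory.rec with | _ k => ?_
    apply exDown_injective
    show nerveMap (faceMap (stdSimplex.asOrderHom x.1)).monotone.functor ≫ l =
      exDown (f.app (op ⦋k⦌) x)
    rw [← hornDesc_fac f x, ← hla, ← Category.assoc]
    rfl
  · apply SSet.yonedaEquiv.injective
    show (SSet.ex.map p).app _ (SSet.yonedaEquiv (SSet.yonedaEquiv.symm (ULift.up l))) = _
    refine (congrArg _ (Equiv.apply_symm_apply _ _)).trans ?_
    apply exDown_injective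
    exact hlb

end

end Vale.Agent.P213.SSetH
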