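import Vale.Agent.P213.SSet.Ex.Eta

/-!
# P213: maps of horns into `Ex`

A horn in `Ex X` is a map out of the nerve of the poset of faces of the horn. Hence `Ex` keeps
fibrations, and a horn in `Ex X` can be filled in `Ex (Ex X)` (Kan).
-/

universe u

namespace Vale.Agent.P213.SSetH

open CategoryTheory SSet Simplicial Opposite PartialOrder MonoidalCategory
  CartesianMonoidalCategory HomotopicalAlgebra SSet.modelCategoryQuillen Limits

noncomputable section

/-- The face lies in the horn. -/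
def InHorn {m : ℕ} (i : Fin (m + 2)) (s : Spec.Face.{u} (m + 1)) : Prop :=
  ∃ j, j ≠ i ∧ ULift.up j ∉ s.finset

/-- The faces of the horn. -/
abbrev HFace (m : ℕ) (i : Fin (m + 2)) : Type u := {s : Spec.Face.{u} (m + 1) // InHorn i s}

variable {m : ℕ} {i : Fin (m + 2)}

theorem InHorn.mono {s t : Spec.Face.{u} (m + 1)} (h : InHorn i t) (hst : s ≤ t) : InHorn i s :=
  h.imp fun _ hj => ⟨hj.1, fun e => hj.2 (hst e)⟩

theorem mem_horn {k : ℕ} {x : (Δ[m + 1] : SSet.{u}).obj (op ⦋k⦌)} :
    x ∈ (horn (m + 1) i).obj (op ⦋k⦌) ↔ ∃ j, j ≠ i ∧ j ∉ Set.range (stdSimplex.asOrderHom x) := by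
  rw [mem_horn_iff, Ne, Set.eq_univ_iff_forall, not_forall]
  refine exists_congr fun j => ?_
  simp only [Set.mem_union, Set.mem_singleton_iff, not_or]
  exact and_comm

/-- The faces of a simplex of the horn. -/
def imgMap {k : ℕ} (x : Fin (k + 1) →o Fin (m + 2)) (hx : ∃ j, j ≠ i ∧ j ∉ Set.range x) :
    Spec.Face.{u} k →o HFace.{u} m i where
  toFun s := ⟨faceMap x s, hx.imp fun j hj => ⟨hj.1, fun h => by
    obtain ⟨y, -, e⟩ := (NonemptyFiniteChains.mem_map_iff _ _ _).1 h
    exact hj.2 ⟨y.down, congrArg ULift.down e⟩⟩⟩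
  monotone' _ _ h := (faceMap x).monotone h

/-- The number of vertices minus one. -/
def dimF {M : ℕ} (s : Spec.Face.{u} M) : ℕ := s.finset.card - 1

theorem card_eq {M : ℕ} (s : Spec.Face.{u} M) :
    (s.finset.map Equiv.ulift.toEmbedding).card = dimF s + 1 := by
  rw [Finset.card_map, dimF]
  have := s.nonempty.card_pos
  omega

/-- The vertices of a face, in order. -/
def emb {M : ℕ} (s : Spec.Face.{u} M) : Fin (dimF s + 1) ↪o Fin (M + 1) :=
  (s.finset.map Equiv.ulift.toEmbedding).orderEmbOfFin (card_eq s)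

theorem mem_range_emb {M : ℕ} (s : Spec.Face.{u} M) (y : Fin (M + 1)) :
    y ∈ Set.range (emb s) ↔ ULift.up y ∈ s.finset := by
  rw [emb, Finset.range_orderEmbOfFin, Finset.mem_coe, Finset.mem_map]
  exact ⟨fun ⟨a, ha, e⟩ => by subst e; exact ha, fun h => ⟨_, h, rfl⟩⟩

/-- A subface, seen in the vertices of a face. -/
def pre {M : ℕ} (s : Spec.Face.{u} M) {t : Spec.Face.{u} M} (h : t ≤ s) :
    Spec.Face.{u} (dimF s) where
  finset := Finset.univ.filter fun a => ULift.up (emb s a.down) ∈ t.finset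
  nonempty := by
    obtain ⟨⟨y⟩, hy⟩ := t.nonempty
    obtain ⟨a, ha⟩ := (mem_range_emb s y).2 (h hy)
    exact ⟨ULift.up a, Finset.mem_filter.2 ⟨Finset.mem_univ _, by rwa [ha]⟩⟩
  comparable a b := le_total _ _

theorem faceMap_pre {M : ℕ} (s : Spec.Face.{u} M) {t : Spec.Face.{u} M} (h : t ≤ s) :
    faceMap (emb s).toOrderHom (pre s h) = t := by
  apply NonemptyFiniteChains.ext
  ext ⟨y⟩
  refine (NonemptyFiniteChains.mem_map_iff _ _ _).trans
    ⟨fun ⟨a, ha, e⟩ => e ▸ (Finset.mem_filter.1 ha).2, fun hy => ?_⟩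
  obtain ⟨a, ha⟩ := (mem_range_emb s y).2 (h hy)
  exact ⟨ULift.up a, Finset.mem_filter.2 ⟨Finset.mem_univ _, by rwa [ha]⟩,
    congrArg ULift.up ha⟩

theorem faceMap_comp {a b c : ℕ} (f : Fin (a + 1) →o Fin (b + 1)) (g : Fin (b + 1) →o Fin (c + 1))
    (s : Spec.Face.{u} a) : faceMap g (faceMap f s) = faceMap (g.comp f) s := by
  apply NonemptyFiniteChains.ext
  ext y
  simp only [NonemptyFiniteChains.orderHomMap_coe, NonemptyFiniteChains.mem_map_iff]
  constructor
  · rintro ⟨x, ⟨z, hz, rfl⟩, rfl⟩; exact ⟨z, hz, rfl⟩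
  · rintro ⟨z, hz, rfl⟩; exact ⟨_, ⟨z, hz, rfl⟩, rfl⟩

theorem faceMap_injective {a b : ℕ} (f : Fin (a + 1) →o Fin (b + 1)) (hf : Function.Injective f) :
    Function.Injective (faceMap.{u} f) := fun s t e => by
  have key : ∀ s t : Spec.Face.{u} a, faceMap.{u} f s = faceMap f t → s.finset ⊆ t.finset := by
    intro s t e y hy
    have h : ULift.up (f y.down) ∈ (faceMap.{u} f s).finset :=
      (NonemptyFiniteChains.mem_map_iff _ _ _).2 ⟨y, hy, rfl⟩
    rw [e] at h
    obtain ⟨x, hx, hxy⟩ := (NonemptyFiniteChains.mem_map_iff _ _ _).1 h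
    rwa [show y = x from ULift.ext _ _ (hf (congrArg ULift.down hxy).symm)]
  exact NonemptyFiniteChains.ext (Finset.Subset.antisymm (key s t e) (key t s e.symm))

theorem nerve_ext {P : Type u} [PartialOrder P] {k : SimplexCategoryᵒᵖ} {σ τ : (nerve P).obj k}
    (h : ∀ j, σ.obj j = τ.obj j) : σ = τ :=
  CategoryTheory.Functor.ext h fun _ _ _ => Subsingleton.elim _ _

theorem obj_le_last {P : Type u} [PartialOrder P] {k : SimplexCategoryᵒᵖ} (σ : (nerve P).obj k)
    (j : Fin (k.unop.len + 1)) : σ.obj j ≤ σ.obj (Fin.last _) :=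
  leOfHom (σ.map (homOfLE (Fin.le_last j)))

/-- A chain below a face, seen in the vertices of that face. -/
def chainPre {M : ℕ} {k : SimplexCategoryᵒᵖ} (c : (nerve (Spec.Face.{u} M)).obj k)
    (s : Spec.Face.{u} M) (h : ∀ j, c.obj j ≤ s) : (nerve (Spec.Face.{u} (dimF s))).obj k :=
  Monotone.functor (f := fun j => pre s (h j)) fun _ _ hab x hx => by
    obtain ⟨-, hx⟩ := Finset.mem_filter.1 hx
    exact Finset.mem_filter.2 ⟨Finset.mem_univ _, leOfHom (c.map (homOfLE hab)) hx⟩

/-- The simplex of the horn of one of its faces. -/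
def faceSimplex (s : HFace.{u} m i) :
    ((horn (m + 1) i : SSet.{u})).obj (op ⦋dimF s.1⦌) :=
  ⟨stdSimplex.objMk (emb s.1).toOrderHom,
    mem_horn.2 (s.2.imp fun j hj => ⟨hj.1, fun h => hj.2 ((mem_range_emb s.1 j).1 h)⟩)⟩

variable {X : SSet.{u}} (φ : (horn.{u} (m + 1) i : SSet.{u}) ⟶ SSet.ex.obj X)

/-- The value of a horn in `Ex X` on a chain of faces. -/
def hornVal (k : SimplexCategoryᵒᵖ) (c : (nerve (HFace.{u} m i)).obj k) : X.obj k :=
  (exDown (φ.app _ (faceSimplex (c.obj (Fin.last _))))).app k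
    (chainPre ((nerveMap (Subtype.mono_coe _).functor).app k c) (c.obj (Fin.last _)).1
      fun j => obj_le_last c j)

/-- The value on the image of a chain is given by the simplex. -/
theorem hornVal_img {a : ℕ} (x : (horn.{u} (m + 1) i : SSet.{u}).obj (op ⦋a⦌))
    (k : SimplexCategoryᵒᵖ) (d : (nerve (Spec.Face.{u} a)).obj k) :
    hornVal φ k ((nerveMap (imgMap (stdSimplex.asOrderHom x.1)
      (mem_horn.1 x.2)).monotone.functor).app k d) = (exDown (φ.app _ x)).app k d := by
  let t := d.obj (Fin.last _)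
  let c := (nerveMap (imgMap (stdSimplex.asOrderHom x.1)
    (mem_horn.1 x.2)).monotone.functor).app k d
  let s := c.obj (Fin.last _)
  have hs : ∀ y, ULift.up (stdSimplex.asOrderHom x.1 (emb t y)) ∈ s.1.finset := fun y =>
    (NonemptyFiniteChains.mem_map_iff _ _ _).2
      ⟨ULift.up (emb t y), (mem_range_emb t _).1 ⟨y, rfl⟩, rfl⟩
  choose p hp using fun y => (mem_range_emb s.1 _).2 (hs y)
  let P : Fin (dimF t + 1) →o Fin (dimF s.1 + 1) := ⟨p, fun y y' h => by
    rw [← (emb s.1).le_iff_le, hp, hp]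
    exact (stdSimplex.asOrderHom x.1).monotone ((emb t).monotone h)⟩
  let τ : (⦋dimF t⦌ : SimplexCategory) ⟶ ⦋a⦌ := SimplexCategory.Hom.mk (emb t).toOrderHom
  let π : (⦋dimF t⦌ : SimplexCategory) ⟶ ⦋dimF s.1⦌ := SimplexCategory.Hom.mk P
  have hcomp : (emb s.1).toOrderHom.comp P =
      (stdSimplex.asOrderHom x.1).comp (emb t).toOrderHom := OrderHom.ext _ _ (funext hp)
  have e : (horn.{u} (m + 1) i : SSet.{u}).map τ.op x =
      (horn.{u} (m + 1) i : SSet.{u}).map π.op (faceSimplex s) := by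
    apply Subtype.ext
    apply stdSimplex.objEquiv.injective
    ext z : 3
    exact (hp z).symm
  let d' := chainPre d t fun j => obj_le_last d j
  have hd : (nerveMap (faceMap (emb t).toOrderHom).monotone.functor).app k d' = d :=
    nerve_ext fun j => faceMap_pre t (obj_le_last d j)
  have key := congrArg (fun z => (exDown z).app k d') (congrArg (φ.app (op ⦋dimF t⦌)) e)
  rw [NatTrans.naturality_apply, NatTrans.naturality_apply, exDown_map, exDown_map] at key
  have key' : (exDown (φ.app _ x)).app k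
      ((nerveMap (faceMap (emb t).toOrderHom).monotone.functor).app k d') =
    (exDown (φ.app _ (faceSimplex s))).app k
      ((nerveMap (faceMap P).monotone.functor).app k d') := key
  rw [hd] at key'
  refine Eq.trans ?_ key'.symm
  refine congrArg ((exDown (φ.app _ (faceSimplex s))).app k) (nerve_ext fun j => ?_)
  apply faceMap_injective (emb s.1).toOrderHom (emb s.1).injective
  refine (faceMap_pre s.1 (obj_le_last c j)).trans ?_
  show faceMap (stdSimplex.asOrderHom x.1) (d.obj j) =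
    faceMap (emb s.1).toOrderHom (faceMap P (pre t (obj_le_last d j)))
  rw [faceMap_comp, hcomp, ← faceMap_comp, faceMap_pre]

/-- A horn in `Ex X` as a map out of the nerve of its faces. -/
def hornDesc : nerve (HFace.{u} m i) ⟶ X where
  app k := TypeCat.ofHom (hornVal φ k)
  naturality k k' f := by
    refine ConcreteCategory.hom_ext _ _ fun c => ?_
    let s := c.obj (Fin.last _)
    let d := chainPre ((nerveMap (Subtype.mono_coe _).functor).app k c) s.1
      fun j => obj_le_last c j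
    have hd : (nerveMap (imgMap (stdSimplex.asOrderHom (faceSimplex s).1)
        (mem_horn.1 (faceSimplex s).2)).monotone.functor).app k d = c :=
      nerve_ext fun j => Subtype.ext (faceMap_pre s.1 (obj_le_last c j))
    show hornVal φ k' ((nerve _).map f c) = X.map f (hornVal φ k c)
    conv_lhs => rw [← hd, ← NatTrans.naturality_apply, hornVal_img φ (faceSimplex s) k']
    exact (NatTrans.naturality_apply (exDown (φ.app _ (faceSimplex s))) f d)

theorem hornDesc_fac {a : ℕ} (x : (horn.{u} (m + 1) i : SSet.{u}).obj (op ⦋a⦌)) :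
    nerveMap (imgMap (stdSimplex.asOrderHom x.1) (mem_horn.1 x.2)).monotone.functor ≫ hornDesc φ =
      exDown (φ.app _ x) := by
  ext k d
  exact hornVal_img φ x k d

end

end Vale.Agent.P213.SSetH
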