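import Vale.Agent.P213.SSet.Ex.Fill
import Vale.Agent.P213.SSet.ExWeq.Filtered

/-!
# P213: the fibrant replacement `Ex^∞`

The colimit of the iterates of `Ex` has Kan values, preserves pullbacks and fibrations, and is
weakly equivalent to the identity as soon as `X → Ex X` is.
-/

universe u

namespace Vale.Agent.P213.SSetH

open CategoryTheory SSet Simplicial Opposite HomotopicalAlgebra SSet.modelCategoryQuillen Limits

noncomputable section

attribute [local instance] Cardinal.fact_isRegular_aleph0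

instance : IsCardinalFiltered ℕ Cardinal.aleph0.{u} :=
  (isCardinalFiltered_aleph0_iff _).2 inferInstance

/-- The iterates of `Ex`. -/
def exIter (n : ℕ) : SSet.{u} ⥤ SSet.{u} :=
  match n with
  | .zero => 𝟭 _
  | .succ k => exIter k ⋙ SSet.ex

/-- The sequence of iterates. -/
def exSeq : ℕ ⥤ (SSet.{u} ⥤ SSet.{u}) :=
  Functor.ofSequence (X := exIter) fun n => Functor.whiskerLeft (exIter n) toEx

/-- The functor `Ex^∞`. -/
def exInf : SSet.{u} ⥤ SSet.{u} := exSeq.flip ⋙ colim

/-- The map to `Ex^∞`. -/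
def toExInf : 𝟭 SSet.{u} ⟶ exInf where
  app X := colimit.ι (exSeq.flip.obj X) 0
  naturality _ _ f := (ι_colimMap (exSeq.flip.map f) 0).symm

theorem exSeq_step (X : SSet.{u}) (n : ℕ) :
    (exSeq.flip.obj X).map (homOfLE (Nat.le_add_right n 1)) = toEx.app ((exIter n).obj X) :=
  congr_app (Functor.ofSequence_map_homOfLE_succ
    (fun n => Functor.whiskerLeft (exIter.{u} n) toEx) n) X

instance (n : ℕ) (i : Fin (n + 2)) : IsFinitelyPresentable.{u} (Λ[n + 1, i] : SSet.{u}) :=
  inferInstance

/-- The chain of the initial segments of the simplex. -/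
def initChain (m : ℕ) : (nerve (Spec.Face.{u} m)).obj (op ⦋m⦌) :=
  Monotone.functor (f := fun j : Fin (m + 1) =>
    ({ finset := (Finset.Iic j).map Equiv.ulift.symm.toEmbedding
       nonempty := Finset.nonempty_Iic.map
       comparable := fun _ _ => le_total _ _ } : Spec.Face.{u} m))
    fun _ _ h => Finset.map_subset_map.2 fun _ hx =>
      Finset.mem_Iic.2 ((Finset.mem_Iic.1 hx).trans h)

theorem mono_toEx (X : SSet.{u}) : Mono (toEx.app X) := by
  rw [NatTrans.mono_iff_mono_app]
  rintro ⟨k⟩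
  induction k using SimplexCategory.rec with | _ a => ?_
  rw [mono_iff_injective]
  intro x y e
  have key : ∀ z : X.obj (op ⦋a⦌),
      (exDown ((toEx.app X).app (op ⦋a⦌) z)).app (op ⦋a⦌) (initChain a) = z := fun z => by
    have h : (toSimplex a (maxV.{u} a)).app (op ⦋a⦌) (initChain a) =
        stdSimplex.objEquiv.symm (𝟙 ⦋a⦌) := by
      apply SSet.stdSimplex.ext
      intro j
      show ((Finset.Iic j).map Equiv.ulift.symm.toEmbedding).sup' Finset.nonempty_Iic.map
        ULift.down = j
      refine le_antisymm (Finset.sup'_le _ _ fun z hz => ?_) ?_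
      · obtain ⟨w, hw, rfl⟩ := Finset.mem_map.1 hz
        exact Finset.mem_Iic.1 hw
      · have hj : ULift.up.{u} j ∈ (Finset.Iic j).map Equiv.ulift.{u}.symm.toEmbedding :=
          Finset.mem_map.2 ⟨j, Finset.mem_Iic.2 le_rfl, rfl⟩
        exact Finset.le_sup' ULift.down hj
    show (SSet.yonedaEquiv.symm z).app (op ⦋a⦌)
      ((toSimplex a (maxV.{u} a)).app (op ⦋a⦌) (initChain a)) = z
    rw [h, yonedaEquiv_symm_app_objEquiv_symm]
    simp
  rw [← key x, ← key y, e]

theorem we_toExInf (h : ∀ X : SSet.{u}, WE (toEx.app X)) (X : SSet.{u}) :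
    WE (toExInf.app X) := by
  suffices RestrMaps.llp (colimit.ι (exSeq.flip.obj X) 0) from we_of_llp this
  intro A B p hp
  refine HasLiftingProperty.transfiniteComposition.hasLiftingProperty_ι_app_bot
    (colimit.isColimit (exSeq.flip.obj X)) (fun n _ => ?_)
  have hmap : (exSeq.flip.obj X).map (homOfLE (Order.le_succ n)) =
      toEx.app ((exIter n).obj X) := exSeq_step X n
  have : Mono (toEx.app ((exIter n).obj X)) := mono_toEx _
  rw [hmap]
  exact (llp_restrMaps_iff_we _).2 (h _) _ hp

theorem kanComplex_exInf (W : SSet.{u}) : KanComplex (exInf.obj W) := by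
  refine (isFibrant_iff _).2 ?_
  rw [HomotopicalAlgebra.fibration_iff, fibrations_eq]
  rintro _ _ _ hj
  simp only [J, MorphismProperty.iSup_iff] at hj
  obtain ⟨m, ⟨i⟩⟩ := hj
  refine ⟨fun {f g} sq => ?_⟩
  obtain ⟨n, f', hf'⟩ := IsCardinalPresentable.exists_hom_of_isColimit Cardinal.aleph0.{u}
    (colimit.isColimit (exSeq.flip.obj W)) f
  obtain ⟨ψ, hψ⟩ := exists_fill (f' ≫ toEx.app ((exIter n).obj W))
  refine ⟨⟨⟨ψ ≫ colimit.ι (exSeq.flip.obj W) (n + 2), ?_, terminalIsTerminal.hom_ext _ _⟩⟩⟩
  refine (Category.assoc _ _ _).symm.trans ((hψ =≫ _).trans ((Category.assoc _ _ _).trans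
    ((Category.assoc _ _ _).trans (Eq.trans ?_ hf'))))
  refine congrArg (f' ≫ ·) ?_
  have e1 := colimit.w (exSeq.flip.obj W) (homOfLE (Nat.le_add_right n 1))
  have e2 := colimit.w (exSeq.flip.obj W) (homOfLE (Nat.le_add_right (n + 1) 1))
  rw [exSeq_step] at e1 e2
  show toEx.app ((exIter n).obj W) ≫ toEx.app ((exIter (n + 1)).obj W) ≫
    colimit.ι (exSeq.flip.obj W) (n + 1 + 1) = colimit.ι (exSeq.flip.obj W) n
  rw [← e1, ← e2]
  rfl

theorem fibration_exIter {E B : SSet.{u}} (p : E ⟶ B) [Fibration p] :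
    ∀ n, Fibration ((exIter n).map p) := fun n => by
  induction n with
  | zero => exact inferInstanceAs (Fibration p)
  | succ n ih => exact fibration_ex ((exIter n).map p)

theorem fibration_exInf {E B : SSet.{u}} (p : E ⟶ B) (hp : Fibration p) :
    Fibration (exInf.map p) := by
  rw [HomotopicalAlgebra.fibration_iff, fibrations_eq]
  rintro _ _ _ hj
  simp only [J, MorphismProperty.iSup_iff] at hj
  obtain ⟨m, ⟨i⟩⟩ := hj
  refine ⟨fun {f g} sq => ?_⟩
  let cE := colimit.isColimit (exSeq.flip.obj E)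
  let cB := colimit.isColimit (exSeq.flip.obj B)
  obtain ⟨a, f', hf'⟩ := IsCardinalPresentable.exists_hom_of_isColimit Cardinal.aleph0.{u} cE f
  obtain ⟨b, g', hg'⟩ := IsCardinalPresentable.exists_hom_of_isColimit Cardinal.aleph0.{u} cB g
  let τ := exSeq.flip.map p
  obtain ⟨n, u, v, huv⟩ := IsCardinalPresentable.exists_eq_of_isColimit Cardinal.aleph0.{u} cB
    (f' ≫ τ.app a) ((horn (m + 1) i).ι ≫ g') (by
      refine (Category.assoc _ _ _).trans
        (((f' ≫= (ι_colimMap τ a).symm).trans ?_).trans (Category.assoc _ _ _).symm)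
      exact (Category.assoc _ _ _).symm.trans ((hf' =≫ _).trans (sq.w.trans (_ ≫= hg'.symm))))
  have : Fibration (τ.app n) := fibration_exIter p n
  have sq' : CommSq (f' ≫ (exSeq.flip.obj E).map u) (horn.{u} (m + 1) i).ι (τ.app n)
      (g' ≫ (exSeq.flip.obj B).map v) := ⟨by
    rw [Category.assoc, τ.naturality, ← Category.assoc, huv, Category.assoc]⟩
  have : HasLiftingProperty (horn.{u} (m + 1) i).ι (τ.app n) := by
    have h := HomotopicalAlgebra.mem_fibrations (τ.app n)
    rw [fibrations_eq] at h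
    exact h _ (horn_ι_mem_J _ _)
  refine ⟨⟨⟨sq'.lift ≫ colimit.ι (exSeq.flip.obj E) n, ?_, ?_⟩⟩⟩
  · exact (Category.assoc _ _ _).symm.trans ((sq'.fac_left =≫ _).trans
      ((Category.assoc _ _ _).trans ((f' ≫= colimit.w _ u).trans hf')))
  · exact (Category.assoc _ _ _).trans ((sq'.lift ≫= ι_colimMap τ n).trans
      ((Category.assoc _ _ _).symm.trans ((sq'.fac_right =≫ _).trans
        ((Category.assoc _ _ _).trans ((g' ≫= colimit.w _ v).trans hg')))))

instance : PreservesLimitsOfShape WalkingCospan exInf.{u} := by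
  have : HasExactColimitsOfShape ℕ (Type u) := ⟨inferInstance⟩
  have h : HasExactColimitsOfShape ℕ SSet.{u} :=
    inferInstanceAs (HasExactColimitsOfShape ℕ (SimplexCategoryᵒᵖ ⥤ Type u))
  have : ∀ n, PreservesLimitsOfShape WalkingCospan (exIter.{u} n) := fun n => by
    induction n with
    | zero => exact inferInstanceAs (PreservesLimitsOfShape WalkingCospan (𝟭 SSet.{u}))
    | succ n ih => exact inferInstanceAs (PreservesLimitsOfShape WalkingCospan (_ ⋙ SSet.ex))
  have : PreservesLimitsOfShape WalkingCospan exSeq.{u}.flip :=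
    preservesLimitsOfShape_of_evaluation _ _ fun n => this n
  have : PreservesLimitsOfShape WalkingCospan (colim : (ℕ ⥤ SSet.{u}) ⥤ SSet.{u}) :=
    h.preservesFiniteLimits.preservesFiniteLimits WalkingCospan
  exact @comp_preservesLimitsOfShape _ _ _ _ _ _ _ _ exSeq.{u}.flip (colim : (ℕ ⥤ SSet.{u}) ⥤ SSet.{u})
    (by assumption) (by assumption)

/-- Fibrations which are weak equivalences lift against monomorphisms. -/
theorem rlp_mono_of_fibration_we' (h : ∀ X : SSet.{u}, WE (toEx.app X)) {E B : SSet.{u}}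
    (p : E ⟶ B) [Fibration p] (hp : WE p) : (MorphismProperty.monomorphisms SSet.{u}).rlp p :=
  rlp_mono_of_fibration_we exInf toExInf kanComplex_exInf (we_toExInf h) fibration_exInf p hp

end

end Vale.Agent.P213.SSetH

namespace Vale.Agent.P213

open CategoryTheory Limits SSet HomotopicalAlgebra SSet.modelCategoryQuillen SSetH

/-- Trivial fibrations are the fibrations that are weak equivalences. -/
theorem trivialFibration_of (h : ∀ X : SSet.{u}, WE (toEx.app X)) : Spec.TrivialFibration.{u} := by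
  intro X Y f
  constructor
  · intro hf
    rw [← rlp_monomorphisms] at hf
    refine ⟨MorphismProperty.antitone_rlp J_le_monomorphisms _ hf, ?_⟩
    show IsWeakHomotopyEquiv f
    rw [isWeakHomotopyEquiv_iff]
    exact we_of_rlp_mono f hf
  · rintro ⟨hf, hw⟩
    have : Fibration f := by rwa [HomotopicalAlgebra.fibration_iff]
    rw [← rlp_monomorphisms]
    exact rlp_mono_of_fibration_we' h f ((isWeakHomotopyEquiv_iff f).1 hw)

end Vale.Agent.P213
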